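import Vale.Agent.P073.LR.Spec

/-!
# (LR2) the collapse function of a slab
-/

namespace Vale.Agent.P073.LR

open MeasureTheory Set Filter Topology Metric Vale.Agent.P073.St
open scoped ContDiff ENNReal

/-! ## Countability of the bad points of lattice polynomials -/

theorem countable_of_isolated {S : Set ℝ}
    (h : ∀ t ∈ S, ∃ r > 0, ∀ s ∈ S, |s - t| < r → s = t) : S.Countable := by
  have hd : DiscreteTopology S := by
    refine discreteTopology_iff_isOpen_singleton.mpr (fun x => ?_)
    obtain ⟨r, hr, hx⟩ := h x.1 x.2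
    have : ({x} : Set S) = (Subtype.val : S → ℝ) ⁻¹' (Metric.ball x.1 r) := by
      ext y
      simp only [mem_singleton_iff, mem_preimage, Metric.mem_ball, Real.dist_eq]
      constructor
      · rintro rfl
        simpa using hr
      · intro hy
        exact Subtype.ext (hx y.1 y.2 hy)
    rw [this]
    exact Metric.isOpen_ball.preimage continuous_subtype_val
  have : Countable S := countable_of_Lindelof_of_discrete
  exact this

/-- along the line `x + t w`, the function `g` is affine near all but countably many points -/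
def CA (g : V → ℝ) (x w : V) : Prop :=
  {t : ℝ | ¬ ∃ c, AffNear g (x + t • w) w c}.Countable

theorem AffNear.mono_r {g : V → ℝ} {x w : V} {c : ℝ} (h : AffNear g x w c) :
    ∃ r > 0, ∀ r' ≤ r, ∀ z, ‖z - x‖ < r' → ∀ s : ℝ, |s| < r' → g (z + s • w) = g z + s * c := by
  obtain ⟨r, hr, h⟩ := h
  exact ⟨r, hr, fun r' hr' z hz s hs => h z (hz.trans_le hr') s (hs.trans_le hr')⟩

theorem AffNear.congr {g g' : V → ℝ} {x w : V} {c : ℝ} (h : AffNear g x w c)
    (e : ∀ᶠ z in 𝓝 x, g' z = g z) : AffNear g' x w c := by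
  obtain ⟨r, hr, h⟩ := h
  obtain ⟨ρ, hρ, he⟩ := Metric.eventually_nhds_iff.mp e
  have hw : 0 < 1 + ‖w‖ := by positivity
  refine ⟨min r (ρ / (2 * (1 + ‖w‖))), by positivity, fun z hz s hs => ?_⟩
  have h1 : ρ / (2 * (1 + ‖w‖)) * (1 + ‖w‖) = ρ / 2 := by field_simp
  have h2 : ‖z - x‖ < ρ / 2 := by
    have h3 := hz.trans_le (min_le_right _ _)
    have h4 : ρ / (2 * (1 + ‖w‖)) ≤ ρ / (2 * (1 + ‖w‖)) * (1 + ‖w‖) :=
      le_mul_of_one_le_right (by positivity) (by linarith [norm_nonneg w])
    linarith
  have h3 : |s| * ‖w‖ < ρ / 2 := by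
    have h4 := hs.trans_le (min_le_right _ _)
    have h5 : |s| * ‖w‖ ≤ ρ / (2 * (1 + ‖w‖)) * ‖w‖ :=
      mul_le_mul_of_nonneg_right h4.le (norm_nonneg w)
    have h6 : 0 < ρ / (2 * (1 + ‖w‖)) := by positivity
    nlinarith
  have h4 : ‖z + s • w - x‖ < ρ := by
    calc ‖z + s • w - x‖ = ‖(z - x) + s • w‖ := by congr 1; abel
      _ ≤ ‖z - x‖ + ‖s • w‖ := norm_add_le _ _
      _ = ‖z - x‖ + |s| * ‖w‖ := by rw [norm_smul, Real.norm_eq_abs]
      _ < ρ := by linarith
  rw [he (y := z) (by rw [dist_eq_norm]; linarith), he (y := z + s • w) (by rwa [dist_eq_norm]),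
    h z (hz.trans_le (min_le_left _ _)) s (hs.trans_le (min_le_left _ _))]

theorem AffNear.comb {g g' : V → ℝ} {x w : V} {c c' : ℝ} (h : AffNear g x w c)
    (h' : AffNear g' x w c') (F : ℝ → ℝ → ℝ) (C : ℝ)
    (hF : ∀ u u' s, F (u + s * c) (u' + s * c') = F u u' + s * C) :
    AffNear (fun z => F (g z) (g' z)) x w C := by
  obtain ⟨r, hr, h⟩ := h
  obtain ⟨r', hr', h'⟩ := h'
  refine ⟨min r r', lt_min hr hr', fun z hz s hs => ?_⟩
  simp only
  rw [h z (hz.trans_le (min_le_left _ _)) s (hs.trans_le (min_le_left _ _)),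
    h' z (hz.trans_le (min_le_right _ _)) s (hs.trans_le (min_le_right _ _)), hF]

theorem CA.sub {g g' : V → ℝ} {x w : V} (h : CA g x w) (h' : CA g' x w) :
    CA (fun z => g z - g' z) x w := by
  refine (h.union h').mono (fun t ht => ?_)
  by_contra hc
  simp only [mem_union, mem_ofPred_eq, not_or, not_not] at hc
  obtain ⟨⟨c, hc⟩, ⟨c', hc'⟩⟩ := hc
  exact ht ⟨c - c', hc.comb hc' (fun u u' => u - u') _ (fun u u' s => by ring)⟩

theorem CA.const (a : ℝ) (x w : V) : CA (fun _ => a) x w := by
  refine (countable_empty).mono (fun t ht => ht ⟨0, 1, one_pos, fun z _ s _ => by simp⟩)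

theorem CA.coord (i : Fin 3) (x w : V) : CA (fun z => z i) x w := by
  refine (countable_empty).mono (fun t ht => ht ⟨w i, 1, one_pos, fun z _ s _ => by simp⟩)

theorem CA.smul {g : V → ℝ} {x w : V} (a : ℝ) (h : CA g x w) : CA (fun z => a * g z) x w := by
  refine h.mono (fun t ht => ?_)
  by_contra hc
  simp only [mem_ofPred_eq, not_not] at hc
  obtain ⟨c, hc⟩ := hc
  exact ht ⟨a * c, hc.comb hc (fun u _ => a * u) _ (fun u u' s => by ring)⟩

theorem CA.max {g g' : V → ℝ} {x w : V} (h : CA g x w) (h' : CA g' x w) (hg : Continuous g)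
    (hg' : Continuous g') : CA (fun z => max (g z) (g' z)) x w := by
  set D : ℝ → ℝ := fun t => g (x + t • w) - g' (x + t • w) with hD
  set S : Set ℝ := {t | D t = 0 ∧ ∃ c c', c ≠ c' ∧ AffNear g (x + t • w) w c ∧
    AffNear g' (x + t • w) w c'} with hS
  have hSc : S.Countable := by
    refine countable_of_isolated (fun t ht => ?_)
    obtain ⟨h0, c, c', hcc, ⟨r, hr, h1⟩, ⟨r', hr', h2⟩⟩ := ht
    refine ⟨min r r', lt_min hr hr', fun s hs hst => ?_⟩
    have e : x + s • w = (x + t • w) + (s - t) • w := by module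
    have h3 := h1 (x + t • w) (by simpa using hr) (s - t) (hst.trans_le (min_le_left _ _))
    have h4 := h2 (x + t • w) (by simpa using hr') (s - t) (hst.trans_le (min_le_right _ _))
    have h5 : D s = 0 := hs.1
    simp only [hD] at h5 h0
    rw [e, h3, h4] at h5
    have h6 : (s - t) * (c - c') = 0 := by linarith
    rcases mul_eq_zero.mp h6 with h7 | h7
    · linarith
    · exact absurd (sub_eq_zero.mp h7) hcc
  refine ((h.union h').union hSc).mono (fun t ht => ?_)
  by_contra hc
  simp only [mem_union, mem_ofPred_eq, not_or, not_not] at hc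
  obtain ⟨⟨⟨c, hc1⟩, ⟨c', hc2⟩⟩, hc3⟩ := hc
  apply ht
  rcases lt_trichotomy (g (x + t • w)) (g' (x + t • w)) with hl | he | hl
  · refine ⟨c', hc2.congr ?_⟩
    filter_upwards [(isOpen_lt hg hg').mem_nhds hl] with z hz
    exact max_eq_right (le_of_lt hz)
  · by_cases hcc : c = c'
    · subst hcc
      exact ⟨c, hc1.comb hc2 (fun u u' => Max.max u u') _
        (fun u u' s => max_add_add_right _ _ _)⟩
    · exact absurd ⟨by simp [hD, he], c, c', hcc, hc1, hc2⟩ hc3
  · refine ⟨c, hc1.congr ?_⟩
    filter_upwards [(isOpen_lt hg' hg).mem_nhds hl] with z hz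
    exact max_eq_left (le_of_lt hz)

theorem CA.min {g g' : V → ℝ} {x w : V} (h : CA g x w) (h' : CA g' x w) (hg : Continuous g)
    (hg' : Continuous g') : CA (fun z => min (g z) (g' z)) x w := by
  have h1 := ((CA.smul (-1) h).max (CA.smul (-1) h') (continuous_const.mul hg)
    (continuous_const.mul hg')).smul (-1)
  have : (fun z => -1 * Max.max (-1 * g z) (-1 * g' z)) = (fun z => Min.min (g z) (g' z)) := by
    ext z
    rw [neg_one_mul, neg_one_mul, neg_one_mul, max_neg_neg, neg_neg]
  rw [this] at h1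
  exact h1

/-! ## The function `nu` -/

theorem nu_nonneg (a : ℝ) (m : ℕ) (t l : ℝ) : 0 ≤ nu a m t l := le_max_left _ _

theorem nu_eq_zero {a : ℝ} {m : ℕ} {t l : ℝ} (h : t ≤ 0) : nu a m t l = 0 :=
  max_eq_left ((min_le_left _ _).trans h)

theorem nu_le {a : ℝ} {m : ℕ} {t l : ℝ} (h : 0 ≤ t) : nu a m t l ≤ t :=
  max_le h (min_le_left _ _)

/-- the increment of `nu` -/
theorem nu_incr {a : ℝ} {m : ℕ} {t t' l l' s : ℝ} (hs : 0 ≤ s) (ht : t ≤ t' + s)
    (ht' : t' ≤ t) (hl : l ≤ l' + s) : nu a m t l ≤ nu a m t' l' + s := by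
  unfold nu
  have h1 : (m : ℝ) * ((m + 1) * a - t) ≤ m * ((m + 1) * a - t') :=
    mul_le_mul_of_nonneg_left (by linarith) (Nat.cast_nonneg m)
  rw [← max_add_add_right]
  refine max_le (le_max_of_le_left (by linarith)) (le_max_of_le_right ?_)
  rw [← min_add_add_right, ← min_add_add_right]
  refine le_min ((min_le_left _ _).trans ht) (le_min ?_ ?_)
  · exact ((min_le_right _ _).trans (min_le_left _ _)).trans (by linarith)
  · exact ((min_le_right _ _).trans (min_le_right _ _)).trans hl

theorem lipschitz_nu (a : ℝ) (m : ℕ) {g l : V → ℝ} (hg : LipschitzWith 1 g)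
    (hl : LipschitzWith 1 l) : LipschitzWith (m + 1) (fun x => nu a m (g x) (l x)) := by
  have h1 : LipschitzWith (m : NNReal) (fun x => (m : ℝ) * ((m + 1) * a - g x)) := by
    refine LipschitzWith.of_dist_le_mul (fun x y => ?_)
    have h2 := hg.dist_le_mul x y
    rw [Real.dist_eq] at h2 ⊢
    have e : (m : ℝ) * ((m + 1) * a - g x) - m * ((m + 1) * a - g y) = -(m * (g x - g y)) := by
      ring
    rw [e, abs_neg, abs_mul, Nat.abs_cast]
    simp only [NNReal.coe_one, one_mul] at h2
    simpa using mul_le_mul_of_nonneg_left h2 (Nat.cast_nonneg (α := ℝ) m)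
  have h3 : LipschitzWith (m + 1 : NNReal) (fun x => min (g x) (min ((m : ℝ) * ((m + 1) * a - g x))
      (l x))) := (hg.min (h1.min hl)).weaken (by
        refine max_le (by simp) (max_le (by simp) (by simp)))
  exact h3.const_max 0

theorem lipschitz_lamF (k : Fin 3) (q : V) (ℓ : ℝ) :
    LipschitzWith 1 (fun x : V => (fun i => if i = k then 0 else max 0 (|x i - q i| - ℓ) : V)) := by
  refine LipschitzWith.of_dist_le_mul (fun x y => ?_)
  simp only [NNReal.coe_one, one_mul]
  refine (dist_pi_le_iff dist_nonneg).mpr (fun i => ?_)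
  by_cases h : i = k
  · simp [h]
  · simp only [h, if_false]
    refine le_trans ?_ (dist_le_pi_dist x y i)
    rw [Real.dist_eq, Real.dist_eq]
    rw [max_comm 0, max_comm 0]
    refine (abs_max_sub_max_le_abs _ _ (0:ℝ)).trans ?_
    have e : |x i - q i| - ℓ - (|y i - q i| - ℓ) = |x i - q i| - |y i - q i| := by ring
    rw [e]
    refine (abs_abs_sub_abs_le (x i - q i) (y i - q i)).trans (le_of_eq ?_)
    congr 1
    ring

theorem lipschitz_lam (k : Fin 3) (q : V) (ℓ a : ℝ) (m : ℕ) : LipschitzWith 1 (lam k q ℓ a m) := by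
  refine LipschitzWith.of_dist_le_mul (fun x y => ?_)
  have h := (lipschitzWith_one_norm.comp (lipschitz_lamF k q ℓ)).dist_le_mul x y
  simp only [Function.comp_apply, NNReal.coe_one, one_mul, mul_one] at h ⊢
  unfold lam
  rw [Real.dist_eq] at h ⊢
  refine le_trans (le_of_eq ?_) h
  rw [← abs_neg]
  congr 1
  ring

theorem lam_incr {k : Fin 3} {q κ : V} {ℓ a : ℝ} {m : ℕ} (hκ : ∀ i, |κ i| ≤ 1) (x : V) {s : ℝ}
    (hs : 0 ≤ s) : |lam k q ℓ a m (x + s • κ) - lam k q ℓ a m x| ≤ s := by
  have h := (lipschitz_lam k q ℓ a m).dist_le_mul (x + s • κ) x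
  simp only [NNReal.coe_one, one_mul] at h
  rw [Real.dist_eq, dist_eq_norm, add_sub_cancel_left, norm_smul, Real.norm_eq_abs,
    abs_of_nonneg hs] at h
  have h1 : ‖κ‖ ≤ 1 := (pi_norm_le_iff_of_nonneg zero_le_one).mpr hκ
  nlinarith

theorem CA.abs {g : V → ℝ} {x w : V} (h : CA g x w) (hg : Continuous g) :
    CA (fun z => |g z|) x w := by
  have h1 := h.max (CA.smul (-1) h) hg (continuous_const.mul hg)
  have : (fun z => Max.max (g z) (-1 * g z)) = (fun z => |g z|) := by
    ext z
    rw [neg_one_mul]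
    rfl
  rwa [this] at h1

theorem ca_lam (k : Fin 3) (q : V) (ℓ a : ℝ) (m : ℕ) (x w : V) : CA (lam k q ℓ a m) x w := by
  have hc : ∀ i : Fin 3, CA (fun z : V => if i = k then 0 else Max.max 0 (|z i - q i| - ℓ)) x w ∧
      Continuous (fun z : V => if i = k then (0:ℝ) else Max.max 0 (|z i - q i| - ℓ)) := by
    intro i
    by_cases h : i = k
    · simp only [h, if_true]
      exact ⟨CA.const 0 x w, continuous_const⟩
    · simp only [h, if_false]
      have h1 : Continuous (fun z : V => z i - q i) := (continuous_apply i).sub continuous_const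
      exact ⟨(CA.const 0 x w).max ((((CA.coord i x w).sub (CA.const (q i) x w)).abs h1).sub
        (CA.const ℓ x w)) continuous_const (h1.abs.sub continuous_const), by fun_prop⟩
  have e : lam k q ℓ a m = fun z => m * a -
      Max.max (Max.max (if (0 : Fin 3) = k then 0 else Max.max 0 (|z 0 - q 0| - ℓ))
        (if (1 : Fin 3) = k then 0 else Max.max 0 (|z 1 - q 1| - ℓ)))
        (if (2 : Fin 3) = k then 0 else Max.max 0 (|z 2 - q 2| - ℓ)) := by
    ext z
    unfold lam
    congr 1
    have hn : ∀ i : Fin 3, 0 ≤ (if i = k then (0:ℝ) else Max.max 0 (|z i - q i| - ℓ)) := by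
      intro i
      split_ifs
      · exact le_rfl
      · exact le_max_left _ _
    apply le_antisymm
    · refine (pi_norm_le_iff_of_nonneg ((hn 2).trans (le_max_right _ _))).mpr (fun i => ?_)
      rw [Real.norm_eq_abs, abs_of_nonneg (hn i)]
      fin_cases i
      · exact (le_max_left _ _).trans (le_max_left _ _)
      · exact (le_max_right _ _).trans (le_max_left _ _)
      · exact le_max_right _ _
    · have hi : ∀ i : Fin 3, (if i = k then (0:ℝ) else Max.max 0 (|z i - q i| - ℓ)) ≤
          ‖fun i => if i = k then (0:ℝ) else Max.max 0 (|z i - q i| - ℓ)‖ := by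
        intro i
        refine le_trans ?_ (norm_le_pi_norm _ i)
        rw [Real.norm_eq_abs]
        exact le_abs_self _
      exact max_le (max_le (hi 0) (hi 1)) (hi 2)
  rw [e]
  exact (CA.const _ x w).sub ((((hc 0).1.max (hc 1).1 (hc 0).2 (hc 1).2)).max (hc 2).1
    ((hc 0).2.max (hc 1).2) (hc 2).2)

theorem ca_nu (a : ℝ) (m : ℕ) {g l : V → ℝ} {x w : V} (h : CA g x w) (h' : CA l x w)
    (hg : Continuous g) (hl : Continuous l) : CA (fun z => nu a m (g z) (l z)) x w := by
  have h1 : CA (fun z => (m : ℝ) * ((m + 1) * a - g z)) x w :=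
    ((CA.const ((m + 1) * a) x w).sub h).smul m
  have h1c : Continuous (fun z => (m : ℝ) * ((m + 1) * a - g z)) :=
    continuous_const.mul (continuous_const.sub hg)
  exact (CA.const 0 x w).max (h.min (h1.min h' h1c hl) hg (h1c.min hl)) continuous_const
    (hg.min (h1c.min hl))

/-- **(LR2)** -/
theorem specMu : SpecMu := by
  intro k q κ ℓ a m ha hm hℓ hκk hκ
  have hlip := lipschitz_lam k q ℓ a m
  have hk : LipschitzWith 1 (fun x : V => q k - x k) := by
    refine LipschitzWith.of_dist_le_mul (fun x y => ?_)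
    simp only [NNReal.coe_one, one_mul]
    rw [Real.dist_eq, show q k - x k - (q k - y k) = -(x k - y k) by ring, abs_neg]
    exact dist_le_pi_dist x y k
  have hk' : LipschitzWith 1 (fun x : V => x k - q k) := by
    refine LipschitzWith.of_dist_le_mul (fun x y => ?_)
    simp only [NNReal.coe_one, one_mul]
    rw [Real.dist_eq, show x k - q k - (y k - q k) = x k - y k by ring]
    exact dist_le_pi_dist x y k
  refine ⟨fun x s hs => ?_, ?_, ?_, ?_, ?_⟩
  · have hl := abs_le.mp (lam_incr (k := k) (q := q) (ℓ := ℓ) (a := a) (m := m) hκ x hs)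
    have e : (x + s • κ) k = x k + s := by simp [hκk]
    unfold mu
    rw [e]
    rcases le_total 0 (x k - q k) with h | h
    · rw [nu_eq_zero (t := q k - x k) (by linarith),
        nu_eq_zero (t := q k - (x k + s)) (by linarith)]
      have := nu_incr (a := a) (m := m) (t := x k + s - q k) (t' := x k - q k)
        (l := lam k q ℓ a m (x + s • κ)) (l' := lam k q ℓ a m x) hs (by linarith) (by linarith)
        (by linarith [hl.2])
      linarith
    rcases le_total (x k + s - q k) 0 with h' | h'
    · rw [nu_eq_zero (t := x k - q k) h, nu_eq_zero (t := x k + s - q k) h']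
      have := nu_incr (a := a) (m := m) (t := q k - x k) (t' := q k - (x k + s))
        (l := lam k q ℓ a m x) (l' := lam k q ℓ a m (x + s • κ)) hs (by linarith) (by linarith)
        (by linarith [hl.1])
      linarith
    · rw [nu_eq_zero (t := x k - q k) h, nu_eq_zero (t := q k - (x k + s)) (by linarith)]
      have h1 := nu_le (a := a) (m := m) (t := q k - x k) (l := lam k q ℓ a m x) (by linarith)
      have h2 := nu_le (a := a) (m := m) (t := x k + s - q k) (l := lam k q ℓ a m (x + s • κ)) h'
      linarith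
  · have h := (lipschitz_nu a m hk hlip).sub (lipschitz_nu a m hk' hlip)
    have e : (2 * (m + 1) : NNReal) = (m + 1) + (m + 1) := by ring
    rw [e]
    exact h
  · rintro x (h | ⟨i, hik, h⟩)
    · have hz : ∀ t l : ℝ, (m + 1) * a ≤ t → nu a m t l = 0 := by
        intro t l ht
        unfold nu
        refine max_eq_left ((min_le_right _ _).trans ((min_le_left _ _).trans ?_))
        exact mul_nonpos_of_nonneg_of_nonpos (Nat.cast_nonneg m) (by linarith)
      unfold mu
      rcases le_total 0 (x k - q k) with h' | h'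
      · rw [abs_of_nonneg h'] at h
        rw [hz _ _ h, nu_eq_zero (t := q k - x k) (by linarith), sub_zero]
      · rw [abs_of_nonpos h'] at h
        rw [nu_eq_zero (t := x k - q k) h', hz _ _ (by linarith), sub_zero]
    · have hl : lam k q ℓ a m x ≤ 0 := by
        unfold lam
        have h1 := norm_le_pi_norm (fun i => if i = k then (0:ℝ) else
          Max.max 0 (|x i - q i| - ℓ)) i
        simp only [hik, if_false, Real.norm_eq_abs] at h1
        have h2 : |x i - q i| - ℓ ≤ |Max.max 0 (|x i - q i| - ℓ)| :=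
          (le_max_right _ _).trans (le_abs_self _)
        linarith
      have hz : ∀ t : ℝ, nu a m t (lam k q ℓ a m x) = 0 := by
        intro t
        exact max_eq_left ((min_le_right _ _).trans ((min_le_right _ _).trans hl))
      unfold mu
      rw [hz, hz, sub_zero]
  · intro x h h'
    have hl : lam k q ℓ a m x = m * a := by
      unfold lam
      have : (fun i => if i = k then (0:ℝ) else Max.max 0 (|x i - q i| - ℓ)) = 0 := by
        ext i
        by_cases hi : i = k
        · simp [hi]
        · simp only [hi, if_false, Pi.zero_apply]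
          exact max_eq_left (by linarith [h' i hi])
      rw [this, norm_zero, sub_zero]
    have hm1 : (1:ℝ) ≤ m := by exact_mod_cast hm
    have hz : ∀ t : ℝ, 0 ≤ t → t ≤ m * a → nu a m t (m * a) = t := by
      intro t ht ht'
      unfold nu
      have h1 : t ≤ m * ((m + 1) * a - t) := by
        have : a ≤ (m + 1) * a - t := by linarith
        nlinarith
      rw [min_eq_left (le_min h1 ht'), max_eq_right ht]
    unfold mu
    rw [hl]
    rcases le_total 0 (x k - q k) with h2 | h2
    · rw [abs_of_nonneg h2] at h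
      rw [nu_eq_zero (t := q k - x k) (by linarith), hz _ h2 h]
      ring
    · rw [abs_of_nonpos h2] at h
      rw [nu_eq_zero (t := x k - q k) h2, hz (q k - x k) (by linarith) (by linarith)]
      ring
  · intro x w
    have h1 : CA (fun z : V => q k - z k) x w := (CA.const _ x w).sub (CA.coord k x w)
    have h2 : CA (fun z : V => z k - q k) x w := (CA.coord k x w).sub (CA.const _ x w)
    exact (ca_nu a m h1 (ca_lam k q ℓ a m x w) hk.continuous hlip.continuous).sub
      (ca_nu a m h2 (ca_lam k q ℓ a m x w) hk'.continuous hlip.continuous)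

end Vale.Agent.P073.LR
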